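import Vale.Agent.P092.TX.H231.R4
import Vale.Agent.P092.TX.H574.Van
import Vale.Agent.P092.TX.H684.VanAll
import Vale.Agent.P092.H729.C7F

/-!
P092, Team C, all amplifications: the blocks of the middle for the picture `PicX`.
-/

set_option linter.all false

namespace Vale.Agent.P092.RC

theorem resX (m : ℕ) (hm : 2 ≤ m) : ResX m := TX.H231.resX m hm

theorem vanPhiX : TX.H574.VanPhi := by
  intro k _ _ _ _ Γ K _ _ _ _ π lam W W' Ω q E δ Q hq hp hW hz d hd g hg C C' hC hC' hCD hne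
  exact TX.H684.vanish_all hq hp hW hz hd hg hC hC' hCD hne

theorem lineX : LineX := TX.H483.lineX_of (TX.H574.vanStmt_of vanPhiX)

theorem crossX2 (hG : GeoStmt) : CrossX 2 := by
  intro k _ _ _ _ Γ K _ _ _ _ π lam₁ lam₂ X Ω q₁ q₂ E₁ E₂ δ₁ δ₂ Q₁ Q₂ _ _ _ _ _ _ l₁ l₂ _ h₁ h₂
  have geo := hG k 2 (by norm_num)
  refine H729.cross geo l₁.cpv l₂.cpv (H729.basis_SL k 2) (H729.basis_PG k 2) h₁ h₂ ?_
  intro N hN hb
  obtain ⟨d, hd, -⟩ := H574.del_main h₂.δmul h₂.δker h₂.δcont geo.mul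
  exact H729.no_bdd hd (fun h n hn => hN _ (H574.jj_y0 h) n hn) hb

end Vale.Agent.P092.RC
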